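import Mathlib
import Vale.Agent.Lib.P160.RV.Defs2

/-!
# P160: the dimension of the pattern space `patOut I q`
-/

namespace Vale.Agent.Lib.P160.H77

open Vale.Agent.Lib.P160 Finset

/-- The coordinates of a vector of `patOut I q`: its values on `I` and one value per fibre of `q`
outside `I`. -/
noncomputable def patCoord {n L : ℕ} (I : Finset (Fin n)) (q : Fin n → Fin L) :
    ↥(patOut I q) →ₗ[ℝ] ((↥I → ℝ) × (Fin L → ℝ)) where
  toFun u := (fun i => (u : Fin n → ℝ) i,
    fun l => if h : ∃ j, j ∉ I ∧ q j = l then (u : Fin n → ℝ) (Classical.choose h) else 0)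
  map_add' u v := by
    refine Prod.ext ?_ ?_
    · funext i; rfl
    · funext l
      by_cases h : ∃ j, j ∉ I ∧ q j = l
      · simp [h]
      · simp [h]
  map_smul' c u := by
    refine Prod.ext ?_ ?_
    · funext i; rfl
    · funext l
      by_cases h : ∃ j, j ∉ I ∧ q j = l
      · simp [h]
      · simp [h]

theorem patCoord_injective {n L : ℕ} (I : Finset (Fin n)) (q : Fin n → Fin L) :
    Function.Injective (patCoord I q) := by
  intro u v huv
  apply Subtype.ext
  funext j
  have h1 := congrArg Prod.fst huv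
  have h2 := congrArg Prod.snd huv
  by_cases hj : j ∈ I
  · exact congrFun h1 ⟨j, hj⟩
  · have hex : ∃ j', j' ∉ I ∧ q j' = q j := ⟨j, hj, rfl⟩
    have h3 := congrFun h2 (q j)
    simp only [patCoord, LinearMap.coe_mk, AddHom.coe_mk, dif_pos hex] at h3
    have hc := Classical.choose_spec hex
    have hu : (u : Fin n → ℝ) j = (u : Fin n → ℝ) (Classical.choose hex) :=
      u.2 j _ hj hc.1 hc.2.symm
    have hv : (v : Fin n → ℝ) j = (v : Fin n → ℝ) (Classical.choose hex) :=
      v.2 j _ hj hc.1 hc.2.symm
    rw [hu, hv]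
    exact h3

theorem finrank_patOut_le {n L : ℕ} (I : Finset (Fin n)) (q : Fin n → Fin L) :
    Module.finrank ℝ ↥(patOut I q) ≤ I.card + L := by
  have h := LinearMap.finrank_le_finrank_of_injective (patCoord_injective I q)
  have e : Module.finrank ℝ ((↥I → ℝ) × (Fin L → ℝ)) = I.card + L := by
    rw [Module.finrank_prod, Module.finrank_fintype_fun_eq_card, Module.finrank_fintype_fun_eq_card,
      Fintype.card_coe, Fintype.card_fin]
  rw [e] at h
  exact h

end Vale.Agent.Lib.P160.H77
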